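import Vale.Agent.P260Z.Ob.Geom
import Vale.Agent.P215.H788.Defs

/-!
# P260, obstruction: the charts and the continuous data
-/

noncomputable section
set_option linter.unusedSectionVars false
variable [Vale.Agent.P215Z.K.Geom]

namespace Vale.Agent.P215Z.K

open P215.H788

abbrev R4 : Type := Fin 4 → ℝ

/-- the first three coordinates are in the open box and outside the closed caves -/
def O3 (y : R4) : Prop :=
  (∀ j : Fin 4, j ≠ 3 → 0 < y j ∧ y j < (boxHi j : ℝ)) ∧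
    ∀ c ∈ caves, ∃ j : Fin 4, j ≠ 3 ∧ (y j < (c.1 j : ℝ) ∨ (c.2 j : ℝ) < y j)

def OO : Set R4 := {y | O3 y ∧ 0 < y 3 ∧ y 3 < 3}
def OO' : Set R4 := {y | O3 y ∧ 0 ≤ y 3 ∧ y 3 < 3}
def Qo (l : Lg) : Set R4 := {y | ∀ j, (org l j : ℝ) < y j ∧ y j < org l j + 3}

/-- the closed cubes -/
def Qb (l : Lg) : Set R4 := {y | ∀ j, (org l j : ℝ) ≤ y j ∧ y j ≤ org l j + 3}

/-- the open side boxes; there is no condition on the last coordinate -/
def Sb (s : Fin 4) : Set R4 := {y | ∀ j, j ≠ 3 → ((sideB s).1 j : ℝ) < y j ∧ y j < (sideB s).2 j}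

def thR (i : Kl) (y : R4) : R4 :=
  fun j => y (ppi i j) + ((org (i, false) j - org (i, true) (ppi i j) : ℤ) : ℝ)

/-- A lifted disc, seen in all charts; `V g` is the part of the disc in the chart `g`. -/
structure Lifted where
  f : F3 → Disc → R4
  cont : ∀ g, Continuous (f g)
  equiv : ∀ g i x, f (g * FreeGroup.of i) x = thR i (f g x)
  V : F3 → Set Disc
  isOpen : ∀ g, IsOpen (V g)
  cover : ∀ x, ∃ g, x ∈ V g
  mem : ∀ g, ∀ x ∈ V g, f g x ∈ OO'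
  bot : ∀ g, ∀ x ∈ V g, f g x 3 = 0 → ∀ l, f g x ∉ Qb l
  two : ∀ g g' x, x ∈ V g → x ∈ V g' → g = g' ∨
    (∃ i, g' = g * FreeGroup.of i ∧ f g x ∈ Qo (i, true)) ∨
    (∃ i, g = g' * FreeGroup.of i ∧ f g' x ∈ Qo (i, true))
  toB : ∀ g i, ∀ x ∈ V g, f g x ∈ Qo (i, true) → x ∈ V (g * FreeGroup.of i)
  toA : ∀ g i, ∀ x ∈ V (g * FreeGroup.of i), f g x ∈ Qo (i, true) → x ∈ V g
  sep : ∀ g g' x y, x ∈ V g → y ∈ V g' → f g x = f g' y → g = g'

/-- The boundary of the disc runs through the four side boxes at the level `0`. -/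
structure Lifted1 extends Lifted where
  bd : ∀ z : Circ, z.toDisc ∈ V 1 ∧ f 1 z.toDisc 3 = 0 ∧
    (z.1.2 = -1 → f 1 z.toDisc ∈ Sb 0) ∧ (z.1.1 = 1 → f 1 z.toDisc ∈ Sb 1) ∧
    (z.1.2 = 1 → f 1 z.toDisc ∈ Sb 2) ∧ (z.1.1 = -1 → f 1 z.toDisc ∈ Sb 3)

/-- The boundary of the disc runs through the four side boxes at any level, and the other charts
avoid the side boxes. -/
structure LiftedS extends Lifted where
  pos : ∀ g, ∀ x ∈ V g, 0 < f g x 3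
  bd : ∀ z : Circ, z.toDisc ∈ V 1 ∧
    (z.1.2 = -1 → f 1 z.toDisc ∈ Sb 0) ∧ (z.1.1 = 1 → f 1 z.toDisc ∈ Sb 1) ∧
    (z.1.2 = 1 → f 1 z.toDisc ∈ Sb 2) ∧ (z.1.1 = -1 → f 1 z.toDisc ∈ Sb 3)
  free : ∀ g, g ≠ 1 → ∀ x ∈ V g, ∀ s, f g x ∉ Sb s

end Vale.Agent.P215Z.K
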