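import Vale.Agent.P260Z.Ob.Top.Defs
import Vale.Agent.P215Z.Top.Collar

/-!
# P260: the boundary of a lifted disc is pushed to the bottom
-/

noncomputable section
set_option linter.unusedSectionVars false
variable [Vale.Agent.P215Z.K.Geom]
namespace Vale.Agent.P215Z.K
open P215.H788


namespace Col

open P215Z.Collar (pr continuous_pr exists_circ pr_circ norm_le)

/-- the boundary of the square -/
def Bd (x : Disc) : Prop := x.1.1 = -1 ∨ x.1.1 = 1 ∨ x.1.2 = -1 ∨ x.1.2 = 1

theorem bd_circ (z : Circ) : Bd z.toDisc := by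
  have hz : max |z.1.1| |z.1.2| = 1 := mem_sphere_zero_iff_norm.1 z.2
  rcases max_choice |z.1.1| |z.1.2| with e | e <;> rw [hz] at e <;>
    rcases (abs_eq zero_le_one).1 e.symm with e | e
  · exact Or.inr (Or.inl e)
  · exact Or.inl e
  · exact Or.inr (Or.inr (Or.inr e))
  · exact Or.inr (Or.inr (Or.inl e))

theorem Bd.norm {x : Disc} (h : Bd x) : ‖x.1‖ = 1 := by
  refine le_antisymm (norm_le x) ?_
  change 1 ≤ max |x.1.1| |x.1.2|
  rcases h with h | h | h | h <;> simp [h]

/-- a boundary point as a point of the circle -/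
def Bd.circ {x : Disc} (h : Bd x) : Circ := ⟨x.1, mem_sphere_zero_iff_norm.2 h.norm⟩

/-- the depth in the collar -/
def dep (x : Disc) : ℝ := max 0 (2 * ‖x.1‖ - 1)

theorem dep_le (x : Disc) : dep x ≤ 1 := max_le (by norm_num) (by linarith [norm_le x])

/-- the displacement -/
def del (D : LiftedS) (x : Disc) : R4 := Pi.single 3 (-(dep x * D.f 1 (pr x) 3))

theorem continuous_del (D : LiftedS) : Continuous (del D) := by
  have h1 : Continuous dep := by unfold dep; fun_prop
  exact (continuous_single 3).comp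
    (h1.mul ((continuous_apply 3).comp ((D.cont 1).comp continuous_pr))).neg

theorem del_inner (D : LiftedS) {x : Disc} (h : ‖x.1‖ ≤ 1 / 2) : del D x = 0 := by
  have h1 : dep x = 0 := max_eq_left (by linarith)
  rw [del, h1, zero_mul, neg_zero, Pi.single_zero]

/-- the linear parts of the chart changes -/
def sg : F3 →* Equiv.Perm (Fin 4) := FreeGroup.lift ppi

/-- the new maps -/
def ff (D : LiftedS) (g : F3) (x : Disc) : R4 := fun j => D.f g (pr x) j + del D x (sg g j)

theorem ff_inner (D : LiftedS) (g : F3) {x : Disc} (h : ‖x.1‖ ≤ 1 / 2) :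
    ff D g x = D.f g (pr x) := by
  funext j
  rw [ff, del_inner D h, Pi.zero_apply, add_zero]

theorem ff_equiv (D : LiftedS) (g : F3) (i : Kl) (x : Disc) :
    ff D (g * FreeGroup.of i) x = thR i (ff D g x) := by
  funext j
  have : sg (g * FreeGroup.of i) j = sg g (ppi i j) := by
    rw [map_mul, sg, FreeGroup.lift_apply_of]
    rfl
  simp only [ff, thR, D.equiv, this]
  ring

theorem ff_ne (D : LiftedS) (x : Disc) {j : Fin 4} (hj : j ≠ 3) :
    ff D 1 x j = D.f 1 (pr x) j := by
  rw [ff, map_one, Equiv.Perm.one_apply, del, Pi.single_eq_of_ne hj, add_zero]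

theorem ff_three (D : LiftedS) (x : Disc) : ff D 1 x 3 = (1 - dep x) * D.f 1 (pr x) 3 := by
  rw [ff, map_one, Equiv.Perm.one_apply, del, Pi.single_eq_same]
  ring

theorem not_Qb {y : R4} {s : Fin 4} (h : y ∈ Sb s) (l : Lg) : y ∉ Qb l := fun hy => by
  obtain ⟨j, h1⟩ := Gx.side_Q s l
  have hj : j ≠ 3 := by
    rintro rfl
    rw [(Gx.side_three s).1, (Gx.side_three s).2, Gx.org_three] at h1
    omega
  rcases h1 with h1 | h1
  · have h2 : ((sideB s).2 j : ℝ) ≤ org l j := by exact_mod_cast h1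
    linarith [(h j hj).2, (hy j).1]
  · have h2 : (org l j : ℝ) + 3 ≤ (sideB s).1 j := by exact_mod_cast h1
    linarith [(h j hj).1, (hy j).2]

theorem not_Qo {y : R4} {s : Fin 4} (h : y ∈ Sb s) (l : Lg) : y ∉ Qo l := fun hy =>
  not_Qb h l fun j => ⟨(hy j).1.le, (hy j).2.le⟩

theorem thR_mem {i : Kl} {y : R4} (h : y ∈ Qo (i, true)) : thR i y ∈ Qo (i, false) := by
  intro j
  have := h (ppi i j)
  simp only [thR, Int.cast_sub]
  constructor <;> linarith [this.1, this.2]

theorem bd_side (D : LiftedS) {x : Disc} (h : Bd x) : ∃ s, D.f 1 x ∈ Sb s := by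
  obtain ⟨-, h0, h1, h2, h3⟩ := D.bd h.circ
  rcases h with h | h | h | h
  · exact ⟨_, h3 h⟩
  · exact ⟨_, h1 h⟩
  · exact ⟨_, h0 h⟩
  · exact ⟨_, h2 h⟩

theorem eq_one (D : LiftedS) {g : F3} {x : Disc} (hx : Bd x) (h : x ∈ D.V g) : g = 1 := by
  obtain ⟨s, h0⟩ := bd_side D hx
  rcases D.two g 1 _ h (D.bd hx.circ).1 with h1 | ⟨i, h1, h2⟩ | ⟨i, -, h2⟩
  · exact h1
  · have := thR_mem h2
    rw [← D.equiv, ← h1] at this
    exact absurd this (not_Qo h0 _)
  · exact absurd h2 (not_Qo h0 _)

theorem ff_side (D : LiftedS) {x : Disc} {s : Fin 4} (h : D.f 1 (pr x) ∈ Sb s) :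
    ff D 1 x ∈ Sb s := fun j hj => by
  rw [ff_ne D x hj]
  exact h j hj

theorem ring_side (D : LiftedS) {x : Disc} (h : Bd (pr x)) : ∃ s, ff D 1 x ∈ Sb s :=
  (bd_side D h).imp fun _ => ff_side D

theorem ring_mem (D : LiftedS) {x : Disc} (h : pr x ∈ D.V 1) : ff D 1 x ∈ OO' := by
  obtain ⟨⟨h1, h2⟩, h3, h4⟩ := D.mem 1 _ h
  have h5 : 0 ≤ dep x := le_max_left _ _
  have h6 := dep_le x
  refine ⟨⟨fun j hj => ?_, fun c hc => ?_⟩, ?_, ?_⟩
  · rw [ff_ne D x hj]
    exact h1 j hj
  · obtain ⟨j, hj, h7⟩ := h2 c hc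
    exact ⟨j, hj, by rwa [ff_ne D x hj]⟩
  · rw [ff_three]
    exact mul_nonneg (by linarith) h3
  · rw [ff_three]
    nlinarith

/-- a point of the new disc is in the old part or in the collar -/
theorem cases_ring (D : LiftedS) {g : F3} {x : Disc} (h : pr x ∈ D.V g) :
    (∀ k, ff D k x = D.f k (pr x)) ∨ (g = 1 ∧ Bd (pr x)) := by
  rcases le_or_gt ‖x.1‖ (1 / 2) with h1 | h1
  · exact Or.inl fun k => ff_inner D k h1
  · obtain ⟨z, hz⟩ := exists_circ h1
    have h2 : Bd (pr x) := hz ▸ bd_circ z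
    exact Or.inr ⟨eq_one D h2 h, h2⟩

end Col

open Col P215Z.Collar in
theorem exists_collar (D : LiftedS) : Nonempty Lifted1 := by
  have hs : ∀ {g x y}, x ∈ D.V g → Col.Bd (pr y) → D.f g x = Col.ff D 1 y → g = 1 :=
    fun hx hy e => by
      obtain ⟨s, h⟩ := ring_side D hy
      by_contra hg
      exact D.free _ hg _ hx s (e ▸ h)
  refine ⟨{ f := Col.ff D
            cont := fun g => continuous_pi fun j =>
              ((continuous_apply j).comp ((D.cont g).comp continuous_pr)).add
                ((continuous_apply _).comp (Col.continuous_del _))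
            equiv := Col.ff_equiv _
            V := fun g => pr ⁻¹' D.V g
            isOpen := fun g => (D.isOpen g).preimage continuous_pr
            cover := fun x => D.cover (pr x)
            mem := fun g x hx => ?_
            bot := fun g x hx => ?_
            two := fun g g' x hx hx' => ?_
            toB := fun g i x hx hq => ?_
            toA := fun g i x hx hq => ?_
            sep := fun g g' x y hx hy e => ?_
            bd := fun z => ?_ }⟩
  · rcases Col.cases_ring D hx with h | ⟨rfl, -⟩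
    · rw [h]
      exact D.mem g _ hx
    · exact Col.ring_mem _ hx
  · rcases Col.cases_ring D hx with h | ⟨rfl, hz⟩
    · rw [h]
      exact D.bot g _ hx
    · obtain ⟨s, h⟩ := ring_side D hz
      exact fun _ => Col.not_Qb h
  · rcases Col.cases_ring D hx with h | ⟨rfl, hz⟩
    · rw [h, h]
      exact D.two g g' _ hx hx'
    · exact Or.inl (Col.eq_one D hz hx').symm
  · rcases Col.cases_ring D hx with h | ⟨rfl, hz⟩
    · exact D.toB g i _ hx (h g ▸ hq)
    · obtain ⟨s, h⟩ := ring_side D hz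
      exact absurd hq (Col.not_Qo h _)
  · rcases Col.cases_ring D hx with h | ⟨h1, hz⟩
    · exact D.toA g i _ hx (h g ▸ hq)
    · have := Col.thR_mem hq
      rw [← Col.ff_equiv, h1] at this
      obtain ⟨s, h⟩ := ring_side D hz
      exact absurd this (Col.not_Qo h _)
  · rcases Col.cases_ring D hx with h | ⟨rfl, hz⟩ <;>
      rcases Col.cases_ring D hy with h' | ⟨rfl, hz'⟩
    · exact D.sep g g' _ _ hx hy (by rw [← h, ← h', e])
    · exact hs hx hz' (by rw [← h, e])
    · exact (hs hy hz (by rw [← h', e])).symm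
    · rfl
  · obtain ⟨h, h0, h1, h2, h3⟩ := D.bd z
    rw [← pr_circ z] at h0 h1 h2 h3
    refine ⟨by rw [Set.mem_preimage, pr_circ]; exact h, ?_, fun e => ff_side D (h0 e),
      fun e => ff_side D (h1 e), fun e => ff_side D (h2 e), fun e => ff_side D (h3 e)⟩
    rw [ff_three, Col.dep, (bd_circ z).norm]
    norm_num

end Vale.Agent.P215Z.K
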