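import Vale.Agent.P260Z.Ob.Top.Collar
import Vale.Agent.P260Z.Ob.Top.Discr.Main
import Vale.Agent.P260Z.Ob.Top.Discr.Stair

noncomputable section
set_option linter.unusedSectionVars false
variable [Vale.Agent.P215Z.K.Geom]

namespace Vale.Agent.P215Z.K

theorem exists_discData (D : Lifted1) : Nonempty DiscData :=
  (Discr.exists_pre D).elim fun P => P.disc

/-- the discretisation -/
theorem LiftedS.discData (D : LiftedS) : Nonempty DiscData :=
  (exists_collar D).elim exists_discData

end Vale.Agent.P215Z.K
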